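import Vale.Agent.P153D.Props
import Vale.Agent.P153DI.Gen

/-!
The continuity theorem in the space of distributions from tightness and uniqueness.
-/

set_option autoImplicit false

namespace P153DJ

open MeasureTheory Filter Topology Set Vale.Agent.P153D

/-- A convergent sequence of laws on the line is tight. -/
theorem tight_line (m : ℕ → ProbabilityMeasure ℝ) (l : ProbabilityMeasure ℝ)
    (h : Tendsto m atTop (𝓝 l)) (ε : ENNReal) (hε : 0 < ε) :
    ∃ R : ℝ, ∀ n, (m n : Measure ℝ) {x | R < |x|} ≤ ε := by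
  have h1 : IsCompact (closure (range m)) :=
    IsCompact.closure_of_subset h.isCompact_insert_range (subset_insert _ _)
  obtain ⟨K, hK, h2⟩ := isTightMeasureSet_iff_exists_isCompact_measure_compl_le.1
    (isTightMeasureSet_of_isCompact_closure h1) ε hε
  obtain ⟨R, hR⟩ := hK.isBounded.subset_closedBall 0
  have h4 : {x : ℝ | R < |x|} ⊆ Kᶜ := fun x hx hx' =>
    absurd (mem_closedBall_zero_iff.1 (hR hx')) (not_le.2 hx)
  exact ⟨R, fun n => le_trans (measure_mono h4) (h2 _ ⟨m n, ⟨n, rfl⟩, rfl⟩)⟩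

/-- Tightness of a sequence of laws with convergent marginals. -/
theorem tight_of (hT : TIG) (Ω : TopologicalSpace.Opens ℂ) (μ : ℕ → ProbabilityMeasure (Di Ω))
    (ν : Te Ω → ProbabilityMeasure ℝ)
    (h : ∀ φ : Te Ω, Tendsto (fun n => (μ n).map (meas_ev φ).aemeasurable) atTop (𝓝 (ν φ))) :
    IsTightMeasureSet (range fun n => (μ n : Measure (Di Ω))) := by
  refine hT Ω ℕ _ fun φ ε hε => ?_
  obtain ⟨R, hR⟩ := tight_line _ _ (h φ) ε hε
  refine ⟨R, fun n => le_trans (le_of_eq ?_) (hR n)⟩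
  rw [ProbabilityMeasure.toMeasure_map, Measure.map_apply (meas_ev φ)
    (measurableSet_lt measurable_const continuous_abs.measurable)]
  rfl

theorem fer_of (hT : TIG) (hU : UNI) : FER := by
  intro Ω μ ν h
  obtain ⟨⟨G, g1, g2, g3⟩, h2⟩ := P153DI.gen (fun (φ : Te Ω) (T : Di Ω) => T φ) cont_ev
    (fun φ => (ν φ : Measure ℝ)) (fun φ => inferInstance) (fun n => (μ n : Measure (Di Ω)))
    (fun n => inferInstance) (tight_of hT Ω μ ν h)
    (fun φ F a1 a2 => by
      refine (ProbabilityMeasure.tendsto_iff_forall_integral_tendsto.1 (h φ)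
        (P153DI.bcf F a1 a2)).congr fun n => ?_
      rw [ProbabilityMeasure.toMeasure_map]
      exact integral_map (meas_ev φ).aemeasurable a1.aestronglyMeasurable)
    (fun a b a1 a2 _ _ a3 F => by rw [hU Ω a b a1 a2 a3])
  refine ⟨⟨G, g1⟩, fun φ => Subtype.ext (g3 φ), ?_⟩
  refine ProbabilityMeasure.tendsto_iff_forall_integral_tendsto.2 fun F => ?_
  exact h2 G g1 g2 g3 F F.continuous ⟨‖F‖, fun x => F.norm_coe_le_norm x⟩

end P153DJ
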